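import Mathlib
import Vale.Agent.P022.H542.L3.Geo

/-!
# P022-L3, chapter G, row [PRIM]: elements of `K` are quotients of primitive series
-/

set_option autoImplicit false

open HahnSeries
open scoped IntermediateField

namespace Vale.Agent.P022.H630.G

open Vale.Agent.P022.H542.L3

/-- the rows of an integer matrix with finitely many columns are integral combinations of
finitely many of them -/
theorem exists_rows {ι α : Type*} [Fintype α] (B : α → ι → ℤ) :
    ∃ S : Finset ι, ∀ n, ∃ z : ι → ℤ, ∀ i, B i n = ∑ m ∈ S, z m * B i m := by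
  classical
  let row : ι → (α → ℤ) := fun n i => B i n
  have hfg : (Submodule.span ℤ (Set.range row)).FG := IsNoetherian.noetherian _
  obtain ⟨T, hT, hspan⟩ := (Submodule.fg_span_iff_fg_span_finset_subset _).1 hfg
  have hch : ∀ t ∈ T, ∃ m, row m = t := fun t ht => hT ht
  rcases isEmpty_or_nonempty ι with hι | hι
  · exact ⟨∅, fun n => (hι.false n).elim⟩
  choose! g hg using hch
  refine ⟨T.image g, fun n => ?_⟩
  have hn : row n ∈ Submodule.span ℤ (T : Set (α → ℤ)) := by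
    rw [← hspan]; exact Submodule.subset_span ⟨n, rfl⟩
  obtain ⟨w, -, hw⟩ := Submodule.mem_span_finset.1 hn
  have hinj : Set.InjOn g T := fun a ha b hb hab => by
    rw [← hg a ha, ← hg b hb, hab]
  refine ⟨fun m => w (row m), fun i => ?_⟩
  rw [Finset.sum_image hinj]
  have := congrFun hw i
  rw [Finset.sum_apply] at this
  change B i n = _
  rw [show B i n = row n i from rfl, ← this]
  refine Finset.sum_congr rfl fun t ht => ?_
  change w t * t i = w (row (g t)) * row (g t) i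
  rw [hg t ht]

/-- **[PRIM]**, general form: the maximum of the values of the coefficients is attained. -/
theorem exists_max {C : Type*} [Field C] (O : ValuationSubring C) {ι α : Type*} [Fintype α]
    (B : α → ι → ℤ) (c : α → C) (h : ∃ n, ∑ i, c i * (B i n : C) ≠ 0) :
    ∃ m, ∑ i, c i * (B i m : C) ≠ 0 ∧
      ∀ n, (∑ i, c i * (B i m : C))⁻¹ * ∑ i, c i * (B i n : C) ∈ O := by
  classical
  obtain ⟨S, hS⟩ := exists_rows B
  set a : ι → C := fun n => ∑ i, c i * (B i n : C) with ha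
  have key : ∀ n, ∃ z : ι → ℤ, a n = ∑ m ∈ S, (z m : C) * a m := by
    intro n
    obtain ⟨z, hz⟩ := hS n
    refine ⟨z, ?_⟩
    simp only [ha, Finset.mul_sum]
    rw [Finset.sum_comm]
    refine Finset.sum_congr rfl fun i _ => ?_
    rw [hz i, Int.cast_sum, Finset.mul_sum]
    refine Finset.sum_congr rfl fun m _ => ?_
    push_cast; ring
  have hSne : S.Nonempty := by
    by_contra hne
    rw [Finset.not_nonempty_iff_eq_empty] at hne
    obtain ⟨n, hn⟩ := h
    obtain ⟨z, hz⟩ := key n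
    rw [hne, Finset.sum_empty] at hz
    exact hn hz
  obtain ⟨m0, hm0, hmax⟩ := S.exists_max_image (fun m => O.valuation (a m)) hSne
  have hint : ∀ z : ℤ, O.valuation (z : C) ≤ 1 := fun z =>
    (O.valuation_le_one_iff _).2 (intCast_mem O z)
  have hle : ∀ n, O.valuation (a n) ≤ O.valuation (a m0) := by
    intro n
    obtain ⟨z, hz⟩ := key n
    rw [hz]
    refine O.valuation.map_sum_le fun m hm => ?_
    rw [map_mul]
    calc O.valuation (z m : C) * O.valuation (a m)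
        ≤ 1 * O.valuation (a m) := mul_le_mul_left (hint _) _
      _ = O.valuation (a m) := one_mul _
      _ ≤ _ := hmax m hm
  have hne : a m0 ≠ 0 := by
    intro h0
    obtain ⟨n, hn⟩ := h
    have := hle n
    rw [h0, map_zero, le_zero_iff, map_eq_zero] at this
    exact hn this
  refine ⟨m0, hne, fun n => ?_⟩
  rw [← O.valuation_le_one_iff, map_mul, map_inv₀]
  have hv : O.valuation (a m0) ≠ 0 := by rwa [Ne, map_eq_zero]
  calc (O.valuation (a m0))⁻¹ * O.valuation (a n)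
      ≤ (O.valuation (a m0))⁻¹ * O.valuation (a m0) := mul_le_mul_right (hle n) _
    _ = 1 := inv_mul_cancel₀ hv

theorem cC (a : ℂ) (x : LS) (n : ℤ) : (C a * x).coeff n = a * x.coeff n := by
  rw [HahnSeries.C_mul_eq_smul, HahnSeries.coeff_smul, smul_eq_mul]

theorem algebraMap_LS (a : ℂ) : algebraMap ℂ LS a = C a := by
  rw [HahnSeries.algebraMap_apply', PowerSeries.algebraMap_apply, HahnSeries.ofPowerSeries_C]
  rfl

theorem e_smul {B : ℕ} (G : Geo B) (a : ℂ) (x : G.K) : G.e (a • x) = C a * G.e x := by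
  rw [Algebra.smul_def, map_mul, AlgHom.commutes, algebraMap_LS]

/-- bounded denominators, powers of `B` -/
def IntS (B : ℕ) (x : LS) : Prop :=
  ∃ m : ℕ, ∀ n : ℤ, ∃ z : ℤ, (B : ℂ) ^ m * x.coeff n = z

theorem intS_one (B : ℕ) : IntS B 1 := by
  refine ⟨0, fun n => ?_⟩
  rw [pow_zero, one_mul, HahnSeries.coeff_one]
  split_ifs
  · exact ⟨1, by norm_num⟩
  · exact ⟨0, by norm_num⟩

theorem IntS.mul {B : ℕ} {x y : LS} (hx : IntS B x) (hy : IntS B y) : IntS B (x * y) := by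
  obtain ⟨m, hm⟩ := hx
  obtain ⟨m', hm'⟩ := hy
  choose z hz using hm
  choose z' hz' using hm'
  refine ⟨m + m', fun n => ⟨∑ ij ∈ Finset.antidiagonal x.isPWO_support y.isPWO_support n,
    z ij.1 * z' ij.2, ?_⟩⟩
  rw [HahnSeries.coeff_mul, Finset.mul_sum, Int.cast_sum]
  refine Finset.sum_congr rfl fun ij _ => ?_
  rw [Int.cast_mul, ← hz, ← hz']
  ring

theorem intS_closure {B : ℕ} (G : Geo B) {x : G.K} (hx : x ∈ Submonoid.closure G.R) :
    IntS B (G.e x) := by
  induction hx using Submonoid.closure_induction with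
  | mem x hx => exact G.int x hx
  | one => rw [map_one]; exact intS_one B
  | mul x y _ _ hx hy => rw [map_mul]; exact hx.mul hy

/-- the algebraic numbers -/
noncomputable abbrev Qa : IntermediateField ℚ ℂ := algebraicClosure ℚ ℂ

theorem mem_Qa {a : ℂ} : a ∈ Qa ↔ IsAlgebraic ℚ a := mem_algebraicClosure_iff

theorem IntS.alg {B : ℕ} (hB : (B : ℂ) ≠ 0) {x : LS} (hx : IntS B x) (n : ℤ) :
    x.coeff n ∈ Qa := by
  obtain ⟨m, hm⟩ := hx
  obtain ⟨z, hz⟩ := hm n
  have h1 : x.coeff n = ((B : ℂ) ^ m)⁻¹ * z := by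
    rw [← hz, ← mul_assoc, inv_mul_cancel₀ (pow_ne_zero _ hB), one_mul]
  rw [h1]
  exact mul_mem (inv_mem (pow_mem (natCast_mem Qa B) m)) (intCast_mem Qa z)

theorem alg_mul {x y : LS} (hx : ∀ n, x.coeff n ∈ Qa) (hy : ∀ n, y.coeff n ∈ Qa) (n : ℤ) :
    (x * y).coeff n ∈ Qa := by
  rw [HahnSeries.coeff_mul]
  exact sum_mem fun ij _ => mul_mem (hx _) (hy _)

/-- a linear functional over the algebraic numbers, applied to the coefficients of a
combination of algebraic series -/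
theorem functional {α : Type*} [Fintype α] (φ : ℂ →ₗ[Qa] Qa) (q : α → ℂ) (y : α → LS)
    (hy : ∀ i n, (y i).coeff n ∈ Qa) (n : ℤ) :
    (∑ i, C ((φ (q i) : Qa) : ℂ) * y i).coeff n =
      ((φ ((∑ i, C (q i) * y i).coeff n) : Qa) : ℂ) := by
  rw [HahnSeries.coeff_sum, HahnSeries.coeff_sum, map_sum]
  push_cast
  refine Finset.sum_congr rfl fun i _ => ?_
  rw [cC, cC]
  have h1 : q i * (y i).coeff n = (⟨(y i).coeff n, hy i n⟩ : Qa) • q i := by
    rw [mul_comm]; rfl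
  rw [h1, map_smul, smul_eq_mul]
  push_cast
  ring

/-- scaling of a combination of series with bounded denominators -/
theorem scale {B : ℕ} (hB : (B : ℂ) ≠ 0) (O : ValuationSubring ℂ) {α : Type*} [Fintype α]
    (c : α → ℂ) (y : α → LS) (hy : ∀ i, IntS B (y i)) (h0 : ∑ i, C (c i) * y i ≠ 0) :
    ∃ m, (∑ i, C (c i) * y i).coeff m ≠ 0 ∧
      ∀ n, ((∑ i, C (c i) * y i).coeff m)⁻¹ * (∑ i, C (c i) * y i).coeff n ∈ O := by
  choose M hM using hy
  choose z hz using hM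
  have hco : ∀ n, (∑ i, C (c i) * y i).coeff n = ∑ i, (c i * ((B : ℂ) ^ M i)⁻¹) * (z i n : ℂ) := by
    intro n
    rw [HahnSeries.coeff_sum]
    refine Finset.sum_congr rfl fun i _ => ?_
    rw [cC, ← hz, mul_assoc, ← mul_assoc (((B : ℂ) ^ M i)⁻¹),
      inv_mul_cancel₀ (pow_ne_zero _ hB), one_mul]
  have hne : ∃ n, (∑ i, C (c i) * y i).coeff n ≠ 0 := by
    by_contra hcon
    refine h0 (HahnSeries.ext (funext fun n => ?_))
    by_contra h
    exact hcon ⟨n, h⟩
  obtain ⟨n0, hn0⟩ := hne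
  rw [hco] at hn0
  obtain ⟨m, hm, hmax⟩ := exists_max O z (fun i => c i * ((B : ℂ) ^ M i)⁻¹) ⟨n0, hn0⟩
  refine ⟨m, by rw [hco]; exact hm, fun n => ?_⟩
  rw [hco, hco]
  exact hmax n

/-- **[PRIM]** -/
theorem prim {B : ℕ} (hB : B ≠ 0) (G : Geo B) (O : ValuationSubring ℂ) (f : G.K) (hf : f ≠ 0)
    (ha : ∀ n, IsAlgebraic ℚ ((G.e f).coeff n)) :
    ∃ (c : ℂ) (x y : LS), c ≠ 0 ∧ IsAlgebraic ℚ c ∧ (∀ n, IsAlgebraic ℚ (x.coeff n)) ∧
      (∀ n, IsAlgebraic ℚ (y.coeff n)) ∧ (∀ n, x.coeff n ∈ O) ∧ (∀ n, y.coeff n ∈ O) ∧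
      (∃ n, x.coeff n = 1) ∧ (∃ n, y.coeff n = 1) ∧ G.e f * y = C c * x := by
  have hB' : (B : ℂ) ≠ 0 := Nat.cast_ne_zero.2 hB
  have hmem : f ∈ IntermediateField.adjoin ℂ G.R := by rw [G.gen]; trivial
  obtain ⟨P, hP, Q, hQ, hfPQ⟩ := IntermediateField.mem_adjoin_iff_div.1 hmem
  have hQ0 : Q ≠ 0 := by
    rintro rfl
    rw [div_zero] at hfPQ
    exact hf hfPQ
  rw [← Subalgebra.mem_toSubmodule, Algebra.adjoin_eq_span, Submodule.mem_span_set'] at hP hQ
  obtain ⟨a, p, g, hPs⟩ := hP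
  obtain ⟨b, q, h, hQs⟩ := hQ
  have hrel : f * Q = P := by rw [hfPQ, div_mul_cancel₀ _ hQ0]
  have heQ : G.e Q = ∑ i, C (q i) * G.e (h i : G.K) := by
    rw [← hQs, map_sum]
    exact Finset.sum_congr rfl fun i _ => e_smul _ _ _
  have heP : G.e P = ∑ j, C (p j) * G.e (g j : G.K) := by
    rw [← hPs, map_sum]
    exact Finset.sum_congr rfl fun i _ => e_smul _ _ _
  have heQ0 : G.e Q ≠ 0 := (map_ne_zero _).2 hQ0
  have hef0 : G.e f ≠ 0 := (map_ne_zero _).2 hf
  have hh : ∀ i, IntS B (G.e (h i : G.K)) := fun i => intS_closure G (h i).2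
  have hg : ∀ j, IntS B (G.e (g j : G.K)) := fun j => intS_closure G (g j).2
  obtain ⟨n0, hn0⟩ : ∃ n, (G.e Q).coeff n ≠ 0 := by
    by_contra hcon
    refine heQ0 (HahnSeries.ext (funext fun n => ?_))
    by_contra h
    exact hcon ⟨n, h⟩
  obtain ⟨φ, hφ⟩ := Module.Projective.exists_dual_ne_zero (V := ℂ) Qa hn0
  set Q' : LS := ∑ i, C ((φ (q i) : Qa) : ℂ) * G.e (h i : G.K) with hQ'
  set P' : LS := ∑ j, C ((φ (p j) : Qa) : ℂ) * G.e (g j : G.K) with hP'
  have hQc : ∀ n, Q'.coeff n = ((φ ((G.e Q).coeff n) : Qa) : ℂ) := by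
    intro n
    rw [hQ', functional φ q _ (fun i n => (hh i).alg hB' n), ← heQ]
  have hPc : ∀ n, P'.coeff n = ((φ ((G.e P).coeff n) : Qa) : ℂ) := by
    intro n
    rw [hP', functional φ p _ (fun i n => (hg i).alg hB' n), ← heP]
  have hQ'0 : Q' ≠ 0 := by
    intro h0
    apply hφ
    have := hQc n0
    rw [h0, HahnSeries.coeff_zero] at this
    exact Subtype.ext this.symm
  have hrel' : G.e f * Q' = P' := by
    ext n
    rw [hQ', Finset.mul_sum]
    have h1 : ∀ i, G.e f * (C ((φ (q i) : Qa) : ℂ) * G.e (h i : G.K)) =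
        C ((φ (q i) : Qa) : ℂ) * (G.e f * G.e (h i : G.K)) := fun i => mul_left_comm _ _ _
    rw [Finset.sum_congr rfl fun i _ => h1 i,
      functional φ q _ (fun i n => alg_mul (fun n => mem_Qa.2 (ha n)) (fun n => (hh i).alg hB' n) n),
      hPc]
    congr 3
    rw [← hrel, map_mul, heQ, Finset.mul_sum]
    exact Finset.sum_congr rfl fun i _ => (mul_left_comm _ _ _).symm
  have hP'0 : P' ≠ 0 := by rw [← hrel']; exact mul_ne_zero hef0 hQ'0
  obtain ⟨m, hm, hmO⟩ := scale hB' O _ _ hh hQ'0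
  obtain ⟨m', hm', hmO'⟩ := scale hB' O _ _ hg hP'0
  rw [← hQ'] at hm hmO
  rw [← hP'] at hm' hmO'
  have hQa : ∀ n, Q'.coeff n ∈ Qa := fun n => by rw [hQc]; exact Subtype.property _
  have hPa : ∀ n, P'.coeff n ∈ Qa := fun n => by rw [hPc]; exact Subtype.property _
  refine ⟨(Q'.coeff m)⁻¹ * P'.coeff m', C (P'.coeff m')⁻¹ * P', C (Q'.coeff m)⁻¹ * Q',
    mul_ne_zero (inv_ne_zero hm) hm', mem_Qa.1 (mul_mem (inv_mem (hQa _)) (hPa _)),
    fun n => ?_, fun n => ?_, fun n => ?_, fun n => ?_, ⟨m', ?_⟩, ⟨m, ?_⟩, ?_⟩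
  · rw [cC]
    exact mem_Qa.1 (mul_mem (inv_mem (hPa _)) (hPa _))
  · rw [cC]
    exact mem_Qa.1 (mul_mem (inv_mem (hQa _)) (hQa _))
  · rw [cC]; exact hmO' n
  · rw [cC]; exact hmO n
  · rw [cC, inv_mul_cancel₀ hm']
  · rw [cC, inv_mul_cancel₀ hm]
  · rw [mul_left_comm, hrel', ← mul_assoc, ← map_mul, mul_assoc, mul_inv_cancel₀ hm', mul_one]

end Vale.Agent.P022.H630.G
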