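import Mathlib

/-!
# P022-L3, chapter G, row [RED]: congruences modulo the maximal ideal of a valuation ring
-/

set_option autoImplicit false

namespace Vale.Agent.P022.H630

variable {Ω Ω' : Type*} [Field Ω] [Field Ω']

/-- `x ≡ 1` modulo the maximal ideal of `W` -/
def One1 (W : ValuationSubring Ω) (x : Ω) : Prop := W.valuation (x - 1) < 1

theorem one1_one (W : ValuationSubring Ω) : One1 W 1 := by
  rw [One1, sub_self, map_zero]; exact zero_lt_one

theorem One1.val {W : ValuationSubring Ω} {x : Ω} (h : One1 W x) : W.valuation x = 1 := by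
  have h1 : x = 1 + (x - 1) := by ring
  rw [h1]
  exact (Valuation.map_one_add_of_lt W.valuation h)

theorem One1.ne_zero {W : ValuationSubring Ω} {x : Ω} (h : One1 W x) : x ≠ 0 := by
  rintro rfl
  have := h.val
  rw [map_zero] at this
  exact zero_ne_one this

theorem One1.mul {W : ValuationSubring Ω} {x y : Ω} (hx : One1 W x) (hy : One1 W y) :
    One1 W (x * y) := by
  have h1 : x * y - 1 = x * (y - 1) + (x - 1) := by ring
  rw [One1, h1]
  refine (W.valuation.map_add _ _).trans_lt (max_lt ?_ hx)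
  rw [map_mul, hx.val, one_mul]
  exact hy

theorem One1.inv {W : ValuationSubring Ω} {x : Ω} (hx : One1 W x) : One1 W x⁻¹ := by
  have h1 : x⁻¹ - 1 = - (x⁻¹ * (x - 1)) := by
    field_simp [hx.ne_zero]
    ring
  rw [One1, h1, Valuation.map_neg, map_mul, map_inv₀, hx.val, inv_one, one_mul]
  exact hx

theorem One1.div {W : ValuationSubring Ω} {x y : Ω} (hx : One1 W x) (hy : One1 W y) :
    One1 W (x / y) := by
  rw [div_eq_mul_inv]; exact hx.mul hy.inv

theorem One1.pow {W : ValuationSubring Ω} {x : Ω} (hx : One1 W x) (n : ℕ) : One1 W (x ^ n) := by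
  induction n with
  | zero => rw [pow_zero]; exact one1_one W
  | succ n ih => rw [pow_succ]; exact ih.mul hx

theorem One1.prod {W : ValuationSubring Ω} {ι : Type*} (s : Finset ι) (x : ι → Ω)
    (hx : ∀ i ∈ s, One1 W (x i)) : One1 W (∏ i ∈ s, x i) := by
  classical
  induction s using Finset.induction_on with
  | empty => rw [Finset.prod_empty]; exact one1_one W
  | insert a s ha ih =>
    rw [Finset.prod_insert ha]
    exact (hx a (Finset.mem_insert_self a s)).mul
      (ih fun i hi => hx i (Finset.mem_insert_of_mem hi))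

theorem One1.map {W : ValuationSubring Ω} {W' : ValuationSubring Ω'} (σ : Ω →+* Ω')
    (hσ : ∀ x, W.valuation x < 1 → W'.valuation (σ x) < 1) {x : Ω} (hx : One1 W x) :
    One1 W' (σ x) := by
  rw [One1, ← map_one σ, ← map_sub]; exact hσ _ hx

/-- a subring `A` of `Ω` with its reduction: `A` is contained in `W` and the kernel of `red`
is the part of `A` in the maximal ideal -/
def IsRed (W : ValuationSubring Ω) {κ : Type*} [CommRing κ] (A : Subring Ω) (red : A →+* κ) :
    Prop :=
  (∀ a : A, W.valuation (a : Ω) ≤ 1) ∧ ∀ a : A, red a = 0 ↔ W.valuation (a : Ω) < 1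

/-- quotients of two elements with non zero reduction -/
def Prim {κ : Type*} [CommRing κ] (A : Subring Ω) (red : A →+* κ) (f : Ω) : Prop :=
  ∃ P Q : A, red P ≠ 0 ∧ red Q ≠ 0 ∧ f = (P : Ω) / (Q : Ω)

theorem IsRed.val_one {W : ValuationSubring Ω} {κ : Type*} [CommRing κ] {A : Subring Ω}
    {red : A →+* κ} (h : IsRed W A red) {a : A} (ha : red a ≠ 0) : W.valuation (a : Ω) = 1 :=
  le_antisymm (h.1 a) (not_lt.1 fun hlt => ha ((h.2 a).2 hlt))

theorem IsRed.one1 {W : ValuationSubring Ω} {κ : Type*} [CommRing κ] {A : Subring Ω}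
    {red : A →+* κ} (h : IsRed W A red) {a b : A} (hab : red a = red b) (hb : red b ≠ 0) :
    One1 W ((a : Ω) / (b : Ω)) := by
  have hvb := h.val_one hb
  have hb0 : (b : Ω) ≠ 0 := by
    intro h0
    rw [h0, map_zero] at hvb
    exact zero_ne_one hvb
  have h1 : (a : Ω) / (b : Ω) - 1 = ((a - b : A) : Ω) / (b : Ω) := by
    rw [div_sub_one hb0]; rfl
  rw [One1, h1, map_div₀, hvb, div_one]
  exact (h.2 _).1 (by rw [map_sub, hab, sub_self])

/-- **[RED]** two multiplicative maps which agree on `A` after reduction are congruent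
modulo the maximal ideal on quotients of primitive elements. -/
theorem one_of_red {W' : ValuationSubring Ω'} {κ κ' : Type*} [CommRing κ] [CommRing κ']
    {A : Subring Ω} {red : A →+* κ} {A' : Subring Ω'} {red' : A' →+* κ'}
    (hred' : IsRed W' A' red') (N F : Ω →*₀ Ω')
    (h : ∀ P : A, red P ≠ 0 → ∃ a b : A', N (P : Ω) = a ∧ F (P : Ω) = b ∧ red' a = red' b ∧
      red' b ≠ 0) {f : Ω} (hf : Prim A red f) : One1 W' (N f / F f) := by
  obtain ⟨P, Q, hP, hQ, rfl⟩ := hf
  have hP1 : One1 W' (N (P : Ω) / F (P : Ω)) := by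
    obtain ⟨a, b, ha, hb, hab, hb0⟩ := h P hP
    rw [ha, hb]; exact hred'.one1 hab hb0
  have hQ1 : One1 W' (N (Q : Ω) / F (Q : Ω)) := by
    obtain ⟨a, b, ha, hb, hab, hb0⟩ := h Q hQ
    rw [ha, hb]; exact hred'.one1 hab hb0
  have h2 : N ((P : Ω) / (Q : Ω)) / F ((P : Ω) / (Q : Ω)) =
      (N (P : Ω) / F (P : Ω)) / (N (Q : Ω) / F (Q : Ω)) := by
    rw [map_div₀, map_div₀, div_div_div_comm]
  rw [h2]
  exact hP1.div hQ1

end Vale.Agent.P022.H630
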