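import Mathlib
import Vale.Agent.P022.H630.L3.Red

/-!
# P022-L3, chapter G: valuation rings dominating a reduction, primitive scaling of Laurent series
-/

set_option autoImplicit false

namespace Vale.Agent.P022.H630

section Hom

variable {Ω Ω' : Type*} [Field Ω] [Field Ω']
variable {R R' κ κ' : Type*} [CommRing R] [CommRing R'] [CommRing κ] [CommRing κ']

/-- `W` dominates the reduction `red` of the ring `R` (mapped to `Ω` by `ι`) -/
def IsRedH (W : ValuationSubring Ω) (ι : R →+* Ω) (red : R →+* κ) : Prop :=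
  (∀ a, W.valuation (ι a) ≤ 1) ∧ ∀ a, red a = 0 ↔ W.valuation (ι a) < 1

/-- quotients of two elements with non zero reduction -/
def PrimH (ι : R →+* Ω) (red : R →+* κ) (f : Ω) : Prop :=
  ∃ P Q : R, red P ≠ 0 ∧ red Q ≠ 0 ∧ f = ι P / ι Q

theorem IsRedH.val_one {W : ValuationSubring Ω} {ι : R →+* Ω} {red : R →+* κ}
    (h : IsRedH W ι red) {a : R} (ha : red a ≠ 0) : W.valuation (ι a) = 1 :=
  le_antisymm (h.1 a) (not_lt.1 fun hlt => ha ((h.2 a).2 hlt))

theorem IsRedH.ne_zero {W : ValuationSubring Ω} {ι : R →+* Ω} {red : R →+* κ}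
    (h : IsRedH W ι red) {a : R} (ha : red a ≠ 0) : ι a ≠ 0 := by
  intro h0
  have := h.val_one ha
  rw [h0, map_zero] at this
  exact zero_ne_one this

theorem IsRedH.one1 {W : ValuationSubring Ω} {ι : R →+* Ω} {red : R →+* κ}
    (h : IsRedH W ι red) {a b : R} (hab : red a = red b) (hb : red b ≠ 0) :
    One1 W (ι a / ι b) := by
  have h1 : ι a / ι b - 1 = ι (a - b) / ι b := by
    rw [div_sub_one (h.ne_zero hb), map_sub]
  rw [One1, h1, map_div₀, h.val_one hb, div_one]
  exact (h.2 _).1 (by rw [map_sub, hab, sub_self])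

/-- **[RED]**, form with ring homomorphisms. -/
theorem one_of_redH {W' : ValuationSubring Ω'} {ι : R →+* Ω} {red : R →+* κ}
    {ι' : R' →+* Ω'} {red' : R' →+* κ'} (h' : IsRedH W' ι' red') (N F : Ω →*₀ Ω')
    (h : ∀ P : R, red P ≠ 0 → ∃ a b : R', N (ι P) = ι' a ∧ F (ι P) = ι' b ∧ red' a = red' b ∧
      red' b ≠ 0) {f : Ω} (hf : PrimH ι red f) : One1 W' (N f / F f) := by
  obtain ⟨P, Q, hP, hQ, rfl⟩ := hf
  have key : ∀ P : R, red P ≠ 0 → One1 W' (N (ι P) / F (ι P)) := by
    intro P hP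
    obtain ⟨a, b, ha, hb, hab, hb0⟩ := h P hP
    rw [ha, hb]; exact h'.one1 hab hb0
  have h2 : N (ι P / ι Q) / F (ι P / ι Q) = (N (ι P) / F (ι P)) / (N (ι Q) / F (ι Q)) := by
    rw [map_div₀, map_div₀, div_div_div_comm]
  rw [h2]
  exact (key P hP).div (key Q hQ)

theorem PrimH.val_one {W : ValuationSubring Ω} {ι : R →+* Ω} {red : R →+* κ}
    (h : IsRedH W ι red) {f : Ω} (hf : PrimH ι red f) : W.valuation f = 1 := by
  obtain ⟨P, Q, hP, hQ, rfl⟩ := hf
  rw [map_div₀, h.val_one hP, h.val_one hQ, div_one]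

theorem PrimH.mul [IsDomain κ] {ι : R →+* Ω} {red : R →+* κ} {f g : Ω} (hf : PrimH ι red f)
    (hg : PrimH ι red g) : PrimH ι red (f * g) := by
  obtain ⟨P, Q, hP, hQ, rfl⟩ := hf
  obtain ⟨P', Q', hP', hQ', rfl⟩ := hg
  refine ⟨P * P', Q * Q', ?_, ?_, ?_⟩
  · rw [map_mul]; exact mul_ne_zero hP hP'
  · rw [map_mul]; exact mul_ne_zero hQ hQ'
  · rw [map_mul, map_mul, div_mul_div_comm]

theorem PrimH.inv {ι : R →+* Ω} {red : R →+* κ} {f : Ω} (hf : PrimH ι red f) :
    PrimH ι red f⁻¹ := by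
  obtain ⟨P, Q, hP, hQ, rfl⟩ := hf
  exact ⟨Q, P, hQ, hP, inv_div _ _⟩

theorem PrimH.div [IsDomain κ] {ι : R →+* Ω} {red : R →+* κ} {f g : Ω} (hf : PrimH ι red f)
    (hg : PrimH ι red g) : PrimH ι red (f / g) := by
  rw [div_eq_mul_inv]; exact hf.mul hg.inv

/-- **Chevalley.** Every reduction to a domain is dominated by a valuation ring. -/
theorem exists_dom [IsDomain κ] (ι : R →+* Ω) (red : R →+* κ)
    (hι : ∀ a, red a ≠ 0 → ι a ≠ 0) : ∃ W : ValuationSubring Ω, IsRedH W ι red := by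
  classical
  let P : Ideal R := RingHom.ker red
  have hP : P.IsPrime := RingHom.ker_isPrime red
  have hu : ∀ y : P.primeCompl, IsUnit (ι y) := fun y =>
    IsUnit.mk0 _ (hι _ fun h => y.2 ((RingHom.mem_ker).2 h))
  let φ : Localization.AtPrime P →+* Ω := IsLocalization.lift hu
  have hφ : ∀ a, φ (algebraMap R _ a) = ι a := IsLocalization.lift_eq hu
  obtain ⟨W, hW⟩ := (LocalSubring.range φ).exists_le_valuationSubring
  obtain ⟨hle, hloc⟩ := LocalSubring.le_def.1 hW
  have hmem : ∀ y, φ y ∈ (LocalSubring.range φ).toSubring := fun y => ⟨y, rfl⟩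
  have hW1 : ∀ y, φ y ∈ W := fun y => hle (hmem y)
  refine ⟨W, fun a => ?_, fun a => ⟨fun ha => ?_, fun ha => ?_⟩⟩
  · rw [W.valuation_le_one_iff, ← hφ]; exact hW1 _
  · by_contra hlt
    have haW : ι a ∈ W := by rw [← hφ]; exact hW1 _
    have hval : W.valuation (ι a) = 1 :=
      le_antisymm ((W.valuation_le_one_iff _).2 haW) (not_lt.1 hlt)
    have hunit : IsUnit (⟨ι a, haW⟩ : W) := (W.valuation_eq_one_iff ⟨ι a, haW⟩).2 hval
    have hm : ι a ∈ (LocalSubring.range φ).toSubring := by rw [← hφ]; exact hmem _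
    have hunit' : IsUnit (⟨ι a, hm⟩ : (LocalSubring.range φ).toSubring) := hloc.1 _ hunit
    obtain ⟨⟨b, hb⟩, hab⟩ := isUnit_iff_exists_inv.1 hunit'
    obtain ⟨y, rfl⟩ := hb
    have h1 : ι a * φ y = 1 := congrArg Subtype.val hab
    have h2 : φ (algebraMap R _ a * y - 1) = 0 := by
      rw [map_sub, map_mul, hφ, h1, map_one, sub_self]
    have h3 : algebraMap R (Localization.AtPrime P) a * y ∈
        IsLocalRing.maximalIdeal (Localization.AtPrime P) := by
      refine Ideal.mul_mem_right _ _ ?_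
      rw [IsLocalization.AtPrime.to_map_mem_maximal_iff (Localization.AtPrime P) P]
      exact (RingHom.mem_ker).2 ha
    have h4 : IsUnit (algebraMap R (Localization.AtPrime P) a * y - 1) := by
      by_contra hn
      have h5 : algebraMap R (Localization.AtPrime P) a * y - 1 ∈
          IsLocalRing.maximalIdeal (Localization.AtPrime P) :=
        (IsLocalRing.mem_maximalIdeal _).2 hn
      have h6 : (1 : Localization.AtPrime P) ∈
          IsLocalRing.maximalIdeal (Localization.AtPrime P) := by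
        have := Ideal.sub_mem _ h3 h5
        rwa [sub_sub_cancel] at this
      exact (IsLocalRing.mem_maximalIdeal _).1 h6 isUnit_one
    have h7 := h4.map φ
    rw [h2] at h7
    exact not_isUnit_zero h7
  · by_contra hne
    have hunit : IsUnit (algebraMap R (Localization.AtPrime P) a) :=
      IsLocalization.map_units _ (⟨a, fun h => hne ((RingHom.mem_ker).1 h)⟩ : P.primeCompl)
    obtain ⟨b, hb⟩ := isUnit_iff_exists_inv.1 hunit
    have h1 : ι a * φ b = 1 := by rw [← hφ, ← map_mul, hb, map_one]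
    have h2 : W.valuation (ι a) * W.valuation (φ b) = 1 := by rw [← map_mul, h1, map_one]
    have h3 : W.valuation (φ b) ≤ 1 := (W.valuation_le_one_iff _).2 (hW1 b)
    have h4 : W.valuation (ι a) * W.valuation (φ b) < 1 :=
      (mul_le_of_le_one_right' h3).trans_lt ha
    rw [h2] at h4
    exact lt_irrefl _ h4

end Hom

end Vale.Agent.P022.H630
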