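import Mathlib

/-!
# P022-L3, chapter G, row [PRIM]: primitive scaling of combinations of integral series
-/

set_option autoImplicit false

namespace Vale.Agent.P022.H630

/-- the rows of an integer matrix with finitely many columns are integral combinations of
finitely many of them -/
theorem exists_rows {r : ℕ} (B : Fin r → ℕ → ℤ) :
    ∃ S : Finset ℕ, ∀ n, ∃ z : ℕ → ℤ, ∀ i, B i n = ∑ m ∈ S, z m * B i m := by
  classical
  let row : ℕ → (Fin r → ℤ) := fun n i => B i n
  have hfg : (Submodule.span ℤ (Set.range row)).FG := IsNoetherian.noetherian _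
  obtain ⟨T, hT, hspan⟩ := (Submodule.fg_span_iff_fg_span_finset_subset _).1 hfg
  have hch : ∀ t ∈ T, ∃ m, row m = t := fun t ht => hT ht
  choose! g hg using hch
  refine ⟨T.image g, fun n => ?_⟩
  have hn : row n ∈ Submodule.span ℤ (T : Set (Fin r → ℤ)) := by
    rw [← hspan]; exact Submodule.subset_span ⟨n, rfl⟩
  obtain ⟨w, -, hw⟩ := Submodule.mem_span_finset.1 hn
  have hinj : Set.InjOn g T := fun a ha b hb hab => by
    rw [← hg a ha, ← hg b hb, hab]
  refine ⟨fun m => w (row m), fun i => ?_⟩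
  rw [Finset.sum_image hinj]
  have := congrFun hw i
  rw [Finset.sum_apply] at this
  change B i n = _
  rw [show B i n = row n i from rfl, ← this]
  refine Finset.sum_congr rfl fun t ht => ?_
  change w t * t i = w (row (g t)) * row (g t) i
  rw [hg t ht]

/-- **[PRIM]** a non zero combination of integral series can be scaled so that it becomes
primitive with respect to a valuation ring of the coefficients. -/
theorem exists_prim {C : Type*} [Field C] (O : ValuationSubring C) {r : ℕ}
    (B : Fin r → ℕ → ℤ) (c : Fin r → C) (h : ∃ n, ∑ i, c i * (B i n : C) ≠ 0) :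
    ∃ d : C, d ≠ 0 ∧ (∃ n, d = (∑ i, c i * (B i n : C))⁻¹) ∧
      (∀ n, d * ∑ i, c i * (B i n : C) ∈ O) ∧
      ∃ n, d * ∑ i, c i * (B i n : C) = 1 := by
  classical
  obtain ⟨S, hS⟩ := exists_rows B
  set a : ℕ → C := fun n => ∑ i, c i * (B i n : C) with ha
  have key : ∀ n, ∃ z : ℕ → ℤ, a n = ∑ m ∈ S, (z m : C) * a m := by
    intro n
    obtain ⟨z, hz⟩ := hS n
    refine ⟨z, ?_⟩
    simp only [ha, Finset.mul_sum]
    rw [Finset.sum_comm]
    refine Finset.sum_congr rfl fun i _ => ?_
    rw [hz i, Int.cast_sum, Finset.mul_sum]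
    refine Finset.sum_congr rfl fun m _ => ?_
    push_cast; ring
  have hSne : S.Nonempty := by
    by_contra hne
    rw [Finset.not_nonempty_iff_eq_empty] at hne
    obtain ⟨n, hn⟩ := h
    obtain ⟨z, hz⟩ := key n
    rw [hne, Finset.sum_empty] at hz
    exact hn hz
  obtain ⟨m0, hm0, hmax⟩ := S.exists_max_image (fun m => O.valuation (a m)) hSne
  have hint : ∀ z : ℤ, O.valuation (z : C) ≤ 1 := fun z =>
    (O.valuation_le_one_iff _).2 (intCast_mem O z)
  have hle : ∀ n, O.valuation (a n) ≤ O.valuation (a m0) := by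
    intro n
    obtain ⟨z, hz⟩ := key n
    rw [hz]
    refine O.valuation.map_sum_le fun m hm => ?_
    rw [map_mul]
    calc O.valuation (z m : C) * O.valuation (a m)
        ≤ 1 * O.valuation (a m) := mul_le_mul_left (hint _) _
      _ = O.valuation (a m) := one_mul _
      _ ≤ _ := hmax m hm
  have hne : a m0 ≠ 0 := by
    intro h0
    obtain ⟨n, hn⟩ := h
    have := hle n
    rw [h0, map_zero, le_zero_iff, map_eq_zero] at this
    exact hn this
  refine ⟨(a m0)⁻¹, inv_ne_zero hne, ⟨m0, rfl⟩, fun n => ?_, m0, inv_mul_cancel₀ hne⟩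
  rw [← O.valuation_le_one_iff, map_mul, map_inv₀]
  have hv : O.valuation (a m0) ≠ 0 := by rwa [Ne, map_eq_zero]
  calc (O.valuation (a m0))⁻¹ * O.valuation (a n)
      ≤ (O.valuation (a m0))⁻¹ * O.valuation (a m0) := mul_le_mul_right (hle n) _
    _ = 1 := inv_mul_cancel₀ hv

/-- the same for power series: after scaling the series has coefficients in the valuation ring
and one coefficient is `1`. -/
theorem exists_prim_series {C : Type*} [Field C] (O : ValuationSubring C) {r : ℕ}
    (B : Fin r → PowerSeries ℤ) (c : Fin r → C) (P : PowerSeries C)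
    (hP : P = ∑ i, c i • PowerSeries.map (Int.castRingHom C) (B i)) (h0 : P ≠ 0) :
    ∃ d : C, d ≠ 0 ∧ (∃ n, d = (PowerSeries.coeff n P)⁻¹) ∧ ∃ P' : PowerSeries O,
      PowerSeries.map O.subtype P' = PowerSeries.C d * P ∧ ∃ n, PowerSeries.coeff n P' = 1 := by
  classical
  have hc : ∀ n, PowerSeries.coeff n P = ∑ i, c i * ((PowerSeries.coeff n (B i) : ℤ) : C) := by
    intro n
    rw [hP, map_sum]
    refine Finset.sum_congr rfl fun i _ => ?_
    rw [PowerSeries.coeff_smul, PowerSeries.coeff_map]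
    simp
  obtain ⟨n0, hn0⟩ : ∃ n, PowerSeries.coeff n P ≠ 0 := by
    by_contra hne
    push_neg at hne
    exact h0 (PowerSeries.ext fun n => by rw [hne n, map_zero])
  obtain ⟨d, hd, ⟨m, hm⟩, hO, n1, hn1⟩ :=
    exists_prim O (fun i n => PowerSeries.coeff n (B i)) c ⟨n0, by rw [← hc]; exact hn0⟩
  refine ⟨d, hd, ⟨m, by rw [hm, hc]⟩,
    PowerSeries.mk fun n => ⟨d * ∑ i, c i * ((PowerSeries.coeff n (B i) : ℤ) : C), hO n⟩, ?_, n1, ?_⟩
  · ext n
    rw [PowerSeries.coeff_map, PowerSeries.coeff_mk, PowerSeries.coeff_C_mul, hc]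
    rfl
  · rw [PowerSeries.coeff_mk]
    exact Subtype.ext hn1

end Vale.Agent.P022.H630
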